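import Vale.Agent.N234N.Main

/-! Weak MTW implies continuity of optimal transport in every dimension when no segment of a
tangent cut locus starts at a purely focal vector. -/

open Bundle Manifold Filter MeasureTheory
open scoped ContDiff Manifold Topology ENNReal

namespace Vale.Agent.Results.P234.A0Nonfocal

open Vale.Agent.P234 Vale.Agent.P234Z57 Vale.Agent.N234 Vale.Agent.N234N

/-- In every dimension, weak MTW implies the transport continuity property, with a modulus of
continuity that depends only on the bounds for the densities, if `M` is nonfocal, or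
has no purely focal vector, or the closures of all `I(y)` are strictly convex, or more generally
`M` has no focal face. -/
theorem result {E : Type*} [NormedAddCommGroup E] [NormedSpace ℝ E] [FiniteDimensional ℝ E]
    {M : Type*} [MetricSpace M] [ChartedSpace E M] [IsManifold 𝓘(ℝ, E) ∞ M]
    [RiemannianBundle (fun x : M => TangentSpace 𝓘(ℝ, E) x)]
    [IsContMDiffRiemannianBundle 𝓘(ℝ, E) ∞ E (fun x : M => TangentSpace 𝓘(ℝ, E) x)]
    [IsRiemannianManifold 𝓘(ℝ, E) M] [CompactSpace M] [ConnectedSpace M]
    [MeasurableSpace M] [BorelSpace M] (n : ℕ) (hn : Module.finrank ℝ E = n)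
    (hW : WeakMTW (E := E) (M := M) exp)
    (hN : Nonfocal (E := E) (M := M) exp ∨
      (∀ (y : M) (v : TangentSpace 𝓘(ℝ, E) y), ¬ PurelyFocal exp y v) ∨
      (∀ y : M, StrictConvex ℝ (closure (injDomain (E := E) exp y))) ∨
      NoFocalFace (E := E) (M := M) exp) :
    IsFiniteMeasure (μHE[n] : Measure M) ∧ (μHE[n] : Measure M).IsOpenPosMeasure ∧
    TransportContinuity (μHE[n] : Measure M) ∧ UniformTransport (E := E) (M := M) exp μHE[n] := by
  obtain ⟨e, he, -, -⟩ := main_unconditional (E := E) (M := M)
  subst hn
  rw [N234.exp_eq he] at hW hN ⊢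
  exact main_nonfocal (facts_of_isExp he) hW (hN.elim (noFocalFace_of_nonfocal (facts_of_isExp he))
    fun h => h.elim (fun h y v _ _ _ => h y v)
      fun h => h.elim (noFocalFace_of_strict (facts_of_isExp he)) id)

end Vale.Agent.Results.P234.A0Nonfocal
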