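import Vale.Agent.N234.Main

/-! Weak MTW implies continuity of optimal transport on surfaces. -/

open Bundle Manifold Filter MeasureTheory
open scoped ContDiff Manifold Topology ENNReal

namespace Vale.Agent.Results.P234.A0Surfaces

open Vale.Agent.P234 Vale.Agent.P234Z57 Vale.Agent.N234

/-- On a surface weak MTW implies the transport continuity property, with a modulus of continuity
`w` that depends only on the bounds `a`, `b` for the densities. -/
theorem result {E : Type*} [NormedAddCommGroup E] [NormedSpace ℝ E] [FiniteDimensional ℝ E]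
    {M : Type*} [MetricSpace M] [ChartedSpace E M] [IsManifold 𝓘(ℝ, E) ∞ M]
    [RiemannianBundle (fun x : M => TangentSpace 𝓘(ℝ, E) x)]
    [IsContMDiffRiemannianBundle 𝓘(ℝ, E) ∞ E (fun x : M => TangentSpace 𝓘(ℝ, E) x)]
    [IsRiemannianManifold 𝓘(ℝ, E) M] [CompactSpace M] [ConnectedSpace M]
    [MeasurableSpace M] [BorelSpace M] :
    Module.finrank ℝ E = 2 → WeakMTW (E := E) (M := M) exp →
      IsFiniteMeasure (μHE[2] : Measure M) ∧ (μHE[2] : Measure M).IsOpenPosMeasure ∧
      TransportContinuity (μHE[2] : Measure M) ∧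
      ∀ a b : ℝ≥0∞, a ≠ 0 → b ≠ ⊤ → ∃ w : ℝ → ℝ, Tendsto w (𝓝 0) (𝓝 0) ∧
        ∀ μ ν : Measure M, IsProbabilityMeasure μ → IsProbabilityMeasure ν →
          μ ≤ b • μHE[2] → a • μHE[2] ≤ ν → ∃ S : M → M, Continuous S ∧
            (∀ x x', dist (S x) (S x') ≤ w (dist x x')) ∧ IsOnlyPlan μ ν S ∧
            (∀ x, ∃! v : TangentSpace 𝓘(ℝ, E) x, dist x (exp x v) = ‖v‖ ∧ exp x v = S x) ∧
            (a • μHE[2] ≤ μ → ν ≤ b • μHE[2] → IsHomeomorph S) := by
  obtain ⟨e, he, -, -⟩ := main_unconditional (E := E) (M := M)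
  rw [N234.exp_eq he]
  exact surface (facts_of_isExp he)

end Vale.Agent.Results.P234.A0Surfaces
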